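import Vale.Agent.P089.H981.Fg

/-! P089: the detecting traces come from locally finite normal subgroups. -/

open scoped InnerProductSpace ComplexOrder Topology

namespace Vale.Agent.N089

open Vale.Agent.P089 Vale.Agent.P086 Filter Module Op

/-- `τ` is the trace of the quotient by `N`. -/
def IsT {G : Type} [Group G] (N : Subgroup G) (τ : (L2 G →L[ℂ] L2 G) →L[ℂ] ℂ) : Prop :=
  (∀ g ∈ N, τ (lam g) = 1) ∧ ∀ g, g ∉ N → τ (lam g) = 0

/-- `P` is detected by locally finite normal subgroups with long elements. -/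
def DetN {G : Type} [Group G] (P : L2 G →L[ℂ] L2 G) (len : G → ℕ) (κ : ℝ) : Prop :=
  len 1 = 0 ∧ (∀ g h, len (g * h) ≤ len g + len h) ∧ ∀ L₀ : ℕ, ∃ L ≥ L₀, ∃ N : Subgroup G,
    N.Normal ∧ LocFin N ∧ (∀ g ∈ N, g ≠ 1 → L ≤ len g) ∧
      ∀ τ, IsT N τ → Real.exp (-κ * L) ≤ ‖τ P - tau0 P‖

theorem data : ∃ (G : Type) (_ : Group G), Countable G ∧ Group.FG G ∧
    ∃ P ∈ CstarR G, P * P = P ∧ ∃ len κ, DetN P len κ := by
  obtain ⟨q, k, D, c, e, d, K, F, C', C, hK, hqk, he, hd, hC, hE, hS, hle, hpat, hfin, honto,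
    hdist, hub, hlb, hgr⟩ := family expanderStatement colourStatement
  classical
  obtain ⟨M⟩ := monster glStatement q F K D c e (by omega) hC hE
  obtain ⟨hinj, hsinj, hsne, -⟩ := injStatement q F K D c e M hK hC hE
  have hord := orderStatement q F K D c e M hK hC hE
  have hn0 : ∀ m, 0 < F.n m := fun m => by have := hE.two m; omega
  have hmono : StrictMono F.n := strictMono_nat_of_lt_succ fun m => by
    have h1 := hgr m
    have h2 := hn0 m
    omega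
  have hontoC : ∀ m, CodeOnto d (C m) := by
    intro m B hB f
    obtain ⟨v, hv, hvf⟩ := honto m B hB f
    exact ⟨v, hle m hv, hvf⟩
  have hpatC : ∀ m, F.pat k m ∈ C m := fun m => hle m (hpat m)
  obtain ⟨hs1, hs2⟩ := Conf.restrictStatement q F K M k d C hd hinj hord hS hn0 hontoC
  obtain ⟨ε, B, hfd⟩ := exists_fibData (keyStatement injStatement orderStatement) gapStatement
    admissibleStatement (D := D) he hqk
  obtain ⟨T, P, hD⟩ := hfd M C hK hC hE hdist hpatC hinj hsinj hsne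
  obtain ⟨Q, hQmem, hQQ, hQs, hQlim⟩ := hD.exists_Q hs1
  have hr0 : Tendsto (fun j : ℕ => (1 - ε) ^ j) atTop (𝓝 0) :=
    tendsto_pow_atTop_nhds_zero_of_lt_one (by linarith only [hD.eps_le]) (by linarith only [hD.eps_pos])
  have hperf : ∀ (χ : NN M C →+ ZMod 2) m h,
      M.Perfect (fun x => decode (conf M C χ x)) m h ↔
        ∀ y, conf M C χ (h * M.pos m y) = F.pat k m y := by
    intro χ m h
    exact forall_congr' fun y => decode_pat_iff hqk F m y _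
  set w : (NN M C →+ ZMod 2) → ℂ := fun χ => P (conf M C χ) (dl 1) 1 with hw
  have hw1 : ∀ (χ : NN M C →+ ZMod 2) m h y, (1 : M.G) = h * M.pos m y →
      M.Perfect (fun x => decode (conf M C χ x)) m h → w χ = (F.n m : ℂ)⁻¹ := by
    intro χ m h y hy hp
    rw [hw, ← one_div]
    exact hD.perfect _ (hs1 _ (conf_mem M C χ)) m h y hy ((hperf χ m h).1 hp)
  have hw0 : ∀ χ : NN M C →+ ZMod 2, (∀ m h y, (1 : M.G) = h * M.pos m y →
      ¬ M.Perfect (fun x => decode (conf M C χ x)) m h) → w χ = 0 := by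
    intro χ hp
    exact hD.imperfect _ (hs1 _ (conf_mem M C χ)) fun m h y hy hp' =>
      hp m h y hy ((hperf χ m h).2 hp')
  have hst : ∀ (χ : NN M C →+ ZMod 2) (j : ℕ),
      ‖⟪dl (1 : M.G), fibA (actN M C) χ (elB M C B ^ j) (dl 1)⟫_ℂ - w χ‖ ≤ (1 - ε) ^ j :=
    fun χ j => hD.state_le hs1 χ j
  refine ⟨Gam M C, inferInstance, countable_Gam M C, Gam_fg M C, Q, mem_CrG.1 hQmem, hQQ,
    lenG M C, ((4 * d * (k + q) : ℕ) : ℝ), lenG_one M C, lenG_mul M C, fun L₀ => ?_⟩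
  obtain ⟨m₁, hm₁⟩ : ∃ m₁, 2 * d * (L₀ + 1) ≤ F.n m₁ :=
    ⟨2 * d * (L₀ + 1), hmono.le_apply⟩
  have hL : L₀ ≤ F.n m₁ / (2 * d) := by
    rw [Nat.le_div_iff_mul_le (by omega)]
    nlinarith only [hm₁]
  have h2d : 2 * d ≤ F.n m₁ := by nlinarith only [hm₁]
  refine ⟨F.n m₁ / (2 * d), hL, ?_⟩
  set C₁ : Codes k F := fun m => if m = m₁ then C' m else C m with hC₁
  have hC₁m : C₁ m₁ = C' m₁ := by simp [hC₁]
  have hC₁n : ∀ m, m ≠ m₁ → C₁ m = C m := fun m hm => by simp [hC₁, hm]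
  have hC₁le : ∀ m, C₁ m ≤ C m := by
    intro m
    by_cases hm : m = m₁
    · rw [hm, hC₁m]; exact hle m₁
    · rw [hC₁n m hm]
  have hpat₁ : ∀ m, F.pat k m ∈ C₁ m := by
    intro m
    by_cases hm : m = m₁
    · rw [hm, hC₁m]; exact hpat m₁
    · rw [hC₁n m hm]; exact hpatC m
  have honto₁ : ∀ m, CodeOnto d (C₁ m) := by
    intro m
    by_cases hm : m = m₁
    · rw [hm, hC₁m]; exact honto m₁
    · rw [hC₁n m hm]; exact hontoC m
  obtain ⟨hr1, hr2⟩ := Conf.restrictStatement q F K M k d C₁ hd hinj hord hS hn0 honto₁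
  have hsup := Conf.supportStatement q F K M k d C₁ C m₁ hd hinj hord hS hn0 honto₁ hC₁le hC₁n
  refine ⟨Nsub M C C₁, Nsub_normal M C C₁, Nsub_locFin M C C₁, fun g hg h1 =>
    Nat.div_le_of_le_mul (le_lenG M hC₁le (F.n m₁) d hsup hg h1), fun τ ⟨hτ1, hτ0⟩ => ?_⟩
  have h1 := trdiff_conf M hqk (by omega) hC hE hmono hC₁le m₁ hC₁n hpat₁ hr1 hr2 hs1 hs2
    τ tau0 (isTr_of_Nsub τ hτ1 hτ0) isTr_tau0 (fun j => elB M C B ^ j) Q hQlim w _ hr0 hst
    hw1 hw0
  rw [hC₁m] at h1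
  exact exp_le_norm_diff (C m₁) (C' m₁) d hd h2d (hfin m₁) _ h1

end Vale.Agent.N089
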