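import Mathlib.GroupTheory.RegularWreathProduct
import Mathlib.LinearAlgebra.LinearIndependent.Defs
import Vale.Agent.P089GQ.St

/-! Restricted wreath products, and the rank of the cokernel of the assembly map. -/

namespace Vale.Agent.N089

open Vale.Agent.P089G Topology

/-- The restricted wreath product `G ≀ T = (⊕_T G) ⋊ T`: the pairs `(f, t)` of the unrestricted
wreath product such that `f : T → G` is trivial outside of a finite set. -/
def Wr (G T : Type) [Group G] [Group T] : Subgroup (RegularWreathProduct G T) where
  carrier := {w | {y | w.left y ≠ 1}.Finite}
  one_mem' := Set.finite_empty.subset fun _ h => h rfl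
  mul_mem' {a b} ha hb := (ha.union (hb.preimage (mul_right_injective a.right⁻¹).injOn)).subset
    fun y h => by_contra fun k => h (by
      have h1 : a.left y = 1 := by_contra fun e => k (Or.inl e)
      have h2 : b.left (a.right⁻¹ * y) = 1 := by_contra fun e => k (Or.inr e)
      exact (congrArg₂ (· * ·) h1 h2).trans (one_mul 1))
  inv_mem' {a} ha := (ha.preimage (mul_right_injective a.right).injOn).subset
    fun _ h e => h (inv_eq_one.2 e)

/-- The cokernel of each homomorphism with the property `P` contains a family, indexed by `T`,
which is linearly independent over `ℤ`. -/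
def Rank (T : Type) {M : Type 1} {N : Type} [AddCommGroup M] [AddCommGroup N]
    (P : (M → N) → Prop) : Prop :=
  ∀ μ : M →+ N, P μ → ∃ x : T → N ⧸ μ.range, LinearIndependent ℤ x

/-- A classifying space for proper actions of `W` exists and, for each model `X` of it, the
assembly map exists, is unique and is not surjective, and its cokernel contains a family, indexed
by `T`, which is linearly independent over `ℤ`. -/
def FailsRank (T W : Type) [Group W] : Prop :=
  (∃ (X : Type) (_ : TopologicalSpace X) (_ : MulAction W X) (_ : ContinuousConstSMul W X)
    (_ : CWComplex (Set.univ : Set X)), IsEG W X) ∧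
  ∀ (X : Type) [TopologicalSpace X] [MulAction W X] [ContinuousConstSMul W X]
    [CWComplex (Set.univ : Set X)], IsEG W X →
  ∀ (K : Type) [NormedAddCommGroup K] [InnerProductSpace ℂ K] [CompleteSpace K]
    (b : HilbertBasis W ℂ K), P089GQ.AssemblyFails X b ∧ Rank T (P089GQ.IsAssembly X b)

end Vale.Agent.N089
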