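import Vale.Agent.P089GG.Mu

/-! P089: traces of long elements are small on the classes of finite propagation. -/

namespace Vale.Agent.N089

open Matrix Vale.Agent.P089 Vale.Agent.P089.Asm Vale.Agent.P089.Op Vale.Agent.P086 Vale.Agent.P089Z
  Vale.Agent.P089G

variable {G : Type} [Group G]

/-- `t` is a trace of norm at most two which vanishes on the elements shorter than `L`. -/
def Long (len : G → ℕ) (L : ℕ) (t : (L2 G →L[ℂ] L2 G) →L[ℂ] ℂ) : Prop :=
  ‖t‖ ≤ 2 ∧ (∀ g h, t (lam (g * h)) = t (lam (h * g))) ∧ ∀ g, len g < L → t (lam g) = 0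

theorem not_fp {len : G → ℕ} {K : ℝ} (h1 : len 1 = 0) (hlen : ∀ g h, len (g * h) ≤ len g + len h)
    {r : ℕ} {q : Matrix (Fin r) (Fin r) (CrG G)} (hq : q * q = q)
    (H : ∀ L₀, ∃ L ≥ L₀, ∃ t, Long len L t ∧ Real.exp (-K * L) ≤ ‖∑ i, t (q i i).1‖) :
    KZero.map (P089G44.cor G) (KZero.cls q hq) ∉ FP G := by
  rw [KZero.map_cls]
  rintro ⟨n, e, f, he, hf, e1, f1, h⟩
  have h3 : KZero.cls _ (blocks_idem he (zero_idem (ι := Fin r))) =
      KZero.cls _ (blocks_idem hf (map_idem (P089G44.cor G) hq)) := by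
    rw [KZero.cls_blocks he zero_idem, KZero.cls_blocks hf (map_idem _ hq), KZero.cls_zero, h]
    abel
  obtain ⟨R₁, hR₁⟩ := approx_roeU len (e.map Subtype.val) e1
  obtain ⟨R₂, hR₂⟩ := approx_roeU len (f.map Subtype.val) f1
  obtain ⟨M, hM⟩ := (Set.finite_range fun p : Fin n × Fin n =>
    max ‖e p.1 p.2‖ ‖f p.1 p.2‖).bddAbove
  refine abstract_trace_estimate' (B := UU G) (Sk G) isClosed_Sk Sk_mono Sk_dense (fil len)
    (fil_mono len) (one_mem_fil h1) (fil_mul hlen) (q.map (P089G44.cor G)) 1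
    (fun i j => Ei_mem_SkA _) (map_idem _ hq) (fun _ => e) (fun _ => f) (fun _ => he) (fun _ => hf)
    (fun _ _ => continuous_const) (fun _ _ => continuous_const)
    ⟨M, fun _ i j => max_le_iff.1 (hM ⟨(i, j), rfl⟩)⟩ (max R₁ R₂)
    (fun ε hε => ⟨0, hR₁ _ (le_max_left _ _) ε hε⟩) (fun ε hε => ⟨0, hR₂ _ (le_max_right _ _) ε hε⟩)
    ((KZero.cls_eq_iff _ _).1 h3) (fun k => k * 2) (2 * |K|) fun L₀ => ?_
  obtain ⟨L, hL, t, ⟨ht2, htr, hlow⟩, hbig⟩ := H (L₀ + 2)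
  refine ⟨L - 1, by omega, fun k => (tauK t k).comp valL, fun k => ?_, fun k x hx y hy => ?_,
    fun k x _ ⟨E, hE, hEx⟩ => ?_, fun k hk => ?_⟩
  · refine (ContinuousLinearMap.opNorm_comp_le _ _).trans ?_
    have h2 := norm_tauK_le t k
    have h3 := norm_valL_le (G := G)
    calc ‖tauK t k‖ * ‖(valL : UU G →L[ℂ] _)‖ ≤ (k * ‖t‖) * 1 := by gcongr
      _ ≤ (k * 2) * 1 := by gcongr
      _ = k * 2 := mul_one _
  · exact tauK_trace t (CstarR G) (trace_cstarR t htr) (UU_cmp_mem x.2) (UU_cmp_mem y.2)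
      (SkA_comm hx) (SkA_comm hy)
  · exact tauK_eq_zero t k (fun g h s m n => UU_equivariant x.2 g h s m n) (E := E)
      (fun g h m n hne => hEx g h m n hne) fun s hs => hlow s (by have := hE s hs; omega)
  · have hval : ∀ i, ((tauK t k).comp valL) (q.map (P089G44.cor G) i i) = t (q i i).1 :=
      fun i => tauK_Ei t hk _
    rw [Finset.sum_congr rfl fun i _ => hval i]
    refine le_trans (Real.exp_le_exp.2 ?_) hbig
    rw [Nat.cast_sub (by omega), Nat.cast_one]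
    have h3 : (2 : ℝ) ≤ L := by exact_mod_cast (by omega : 2 ≤ L)
    nlinarith only [le_abs_self K, h3, abs_nonneg K]

theorem exists_tr {R : Type} [Ring R] (φ : R →+ ℂ) (h : ∀ a b, φ (a * b) = φ (b * a)) :
    ∃ T : KZero R →+ ℂ, ∀ {ι : Type} [Fintype ι] (e : Matrix ι ι R) (he : e * e = e),
      T (KZero.cls e he) = ∑ i, φ (e i i) := by
  have k : ∀ {ι κ : Type} [Fintype ι] [Fintype κ] (e : Matrix ι ι R) (f : Matrix κ κ R),
      e * e = e → f * f = f → Eqv e f → ∑ i, φ (e i i) = ∑ i, φ (f i i) := by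
    rintro ι κ _ _ _ _ _ _ ⟨x, y, rfl, rfl⟩
    simp only [Matrix.mul_apply, map_sum]
    rw [Finset.sum_comm]
    exact Finset.sum_congr rfl fun j _ => Finset.sum_congr rfl fun i _ => h _ _
  exact ⟨KZero.lift (fun e _ => ∑ i, φ (e i i)) k fun _ _ _ _ => Fintype.sum_sum_type _,
    fun e he => KZero.lift_cls (fun e _ => ∑ i, φ (e i i)) k
      (fun _ _ _ _ => Fintype.sum_sum_type _) e he⟩

theorem exists_trK {t : (L2 G →L[ℂ] L2 G) →L[ℂ] ℂ}
    (ht : ∀ g h, t (lam (g * h)) = t (lam (h * g))) :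
    ∃ T : KZero (CrG G) →+ ℂ, ∀ {ι : Type} [Fintype ι] (e : Matrix ι ι (CrG G)) (he : e * e = e),
      T (KZero.cls e he) = ∑ i, t (e i i).1 :=
  exists_tr (AddMonoidHom.mk' (fun a : CrG G => t a.1) fun a b => t.map_add a.1 b.1) fun a b =>
    trace_cstarR t ht _ (mem_CrG.1 a.2) _ (mem_CrG.1 b.2)

/-- The homomorphism on `K_0` given by a trace. -/
noncomputable def trK (t : (L2 G →L[ℂ] L2 G) →L[ℂ] ℂ)
    (ht : ∀ g h, t (lam (g * h)) = t (lam (h * g))) : KZero (CrG G) →+ ℂ :=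
  (exists_trK ht).choose

theorem trK_cls {t : (L2 G →L[ℂ] L2 G) →L[ℂ] ℂ} (ht : ∀ g h, t (lam (g * h)) = t (lam (h * g)))
    {ι : Type} [Fintype ι] {e : Matrix ι ι (CrG G)} (he : e * e = e) :
    trK t ht (KZero.cls e he) = ∑ i, t (e i i).1 :=
  (exists_trK ht).choose_spec e he

theorem not_fp' {len : G → ℕ} {K : ℝ} (h1 : len 1 = 0)
    (hlen : ∀ g h, len (g * h) ≤ len g + len h) {x : KZero (CrG G)}
    (H : ∀ L₀, ∃ L ≥ L₀, ∃ t, ∃ h : Long len L t, Real.exp (-K * L) ≤ ‖trK t h.2.1 x‖) :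
    KZero.map (P089G44.cor G) x ∉ FP G := by
  obtain ⟨n, e, f, he, hf, rfl⟩ := x.exists_rep
  have hq := sub_idem (blocks_idem he (compl_idem hf)) finSumFinEquiv.symm
  have e1 : KZero.cls _ hq = KZero.cls e he - KZero.cls f hf +
      KZero.cls (1 : Matrix (Fin n) (Fin n) (CrG G)) (one_mul 1) := by
    rw [KZero.cls_submatrix (blocks_idem he (compl_idem hf)), KZero.cls_blocks he (compl_idem hf),
      ← KZero.cls_compl hf]
    abel
  refine fun h => not_fp (K := K) h1 hlen hq (fun L₀ => ?_) ?_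
  · obtain ⟨L, hL, t, ht, hb⟩ := H (L₀ + 1)
    refine ⟨L, by omega, t, ht, ?_⟩
    have := ht.2.2 1 (by omega)
    rw [lam_one] at this
    rw [← trK_cls ht.2.1 hq, e1, map_add, trK_cls]
    simpa [this] using hb
  · rw [e1, map_add, KZero.map_cls _ (one_mul 1)]
    refine add_mem h (cls_mem_FP _ fun i j => ?_)
    change Ei 0 0 ((1 : Matrix (Fin n) (Fin n) (CrG G)) i j).1 ∈ _
    by_cases hij : i = j
    · rw [hij, one_apply_eq, OneMemClass.coe_one, ← lam_one]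
      exact (roeB_Ei_lam 1).mem_roeU
    · rw [one_apply_ne hij]
      exact (show Ei 0 0 _ = 0 from (EiL (G := G)).map_zero) ▸ zero_mem _

end Vale.Agent.N089
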