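import Vale.Agent.N089.Prod
import Vale.Agent.P089GQ.Br

/-! The cokernel of the assembly map of the wreath product. -/

namespace Vale.Agent.N089

open Vale.Agent.P089 Vale.Agent.P089.Op Vale.Agent.P086 Vale.Agent.P089G Vale.Agent.P089GG
  Vale.Agent.P089GS Polynomial Topology

variable {G T : Type} [Group G] [Group T] {P : Ops G} {len : G → ℕ} {κ : ℝ}

theorem DetN.detect (hD : DetN P len κ) : BC.Detect P len κ := ⟨hD.1, hD.2.1, fun L₀ => by
  obtain ⟨L, hL, N, n1, n2, n3, n4⟩ := hD.2.2 L₀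
  obtain ⟨τ, t1, t2⟩ := exists_tau N n2
  obtain ⟨a, b, c⟩ := long n1 t2 t1 n3
  exact ⟨L, hL, _, a, b, c, n4 τ t2⟩⟩

omit [Group T] in
theorem indep_of {a : T → CrG G} (ha : ∀ s, a s * a s = a s) {k : T → ℕ}
    (inj : Function.Injective k) (k0 : ∀ s, k s ≠ 0) {x : ℂ} (h1 : len 1 = 0)
    (h2 : ∀ g h, len (g * h) ≤ len g + len h) (H : ∀ δ > 0, ∀ L₀, ∃ L ≥ L₀, ∃ y t, Long len L t ∧
      ‖y - x‖ < δ ∧ Real.exp (-κ * L) ≤ ‖y - x‖ ∧ ∀ s, t (a s).1 = y ^ k s - x ^ k s)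
    (m : T →₀ ℤ) (hm : KZero.map (P089G44.cor G)
      (m.sum fun s c => c • KZero.cls _ (diag_idem (ι := Fin 1) (ha s))) ∈ FP G) : m = 0 := by
  by_contra h0
  obtain ⟨s, hs⟩ := Finsupp.support_nonempty_iff.2 h0
  set f : ℂ[X] := m.sum fun s c => monomial (k s) (c : ℂ) with hf
  obtain ⟨K, δ, L₁, hδ, hK⟩ := poly (f := f) (x := x) (fun e => by
    have h1 := congrArg (coeff · (k s)) e
    simp only [hf, coeff_sub, coeff_C, if_neg (k0 s), sub_zero, Finsupp.sum, finsetSum_coeff,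
      coeff_monomial, coeff_zero] at h1
    rw [Finset.sum_eq_single s (fun u _ hu => if_neg (inj.ne hu)) (fun h => (h hs).elim),
      if_pos rfl] at h1
    exact Finsupp.mem_support_iff.1 hs (by exact_mod_cast h1)) κ
  refine not_fp' (K := K) h1 h2 (fun L₀ => ?_) hm
  obtain ⟨L, hL, y, t, t1, t2, t3, e⟩ := H δ hδ (L₀ + L₁)
  refine ⟨L, by omega, t, t1, (hK L (by omega) y t2 t3).trans_eq (congrArg _ ?_)⟩
  have e' : ∀ s, trK t t1.2.1 (KZero.cls _ (diag_idem (ι := Fin 1) (ha s))) = y ^ k s - x ^ k s :=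
    fun s => by rw [trK_cls, Fin.sum_univ_one, Matrix.diagonal_apply_eq, e]
  simp only [hf, Finsupp.sum, eval_finsetSum, eval_monomial, map_sum, map_zsmul, e', zsmul_eq_mul,
    mul_sub, Finset.sum_sub_distrib]

theorem indep [Countable T] (hP : P ∈ CstarR G) (hPP : P * P = P) (hD : DetN P len κ) :
    ∃ x : T → KZero (CrG (Wr G T)), ∀ m : T →₀ ℤ,
      KZero.map (P089G44.cor _) (m.sum fun s c => c • x s) ∈ FP (Wr G T) → m = 0 := by
  obtain ⟨j, hj⟩ := exists_injective_nat T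
  let S : T → Finset T := fun s => ((Set.finite_Iic (j s)).preimage hj.injOn).toFinset
  have hS : ∀ s u, u ∈ S s ↔ j u ≤ j s := fun s u => Set.Finite.mem_toFinset _
  have lt : ∀ s u, j s < j u → (S s).card < (S u).card := fun s u h => Finset.card_lt_card
    ⟨fun v hv => (hS _ _).2 (((hS _ _).1 hv).trans h.le), fun k =>
      h.not_ge ((hS _ _).1 (k ((hS u u).2 le_rfl)))⟩
  choose R hR hRR hτ using fun s => prods hP hPP (S s)
  refine ⟨_, indep_of (κ := κ) (x := tau0 P) (k := fun s => (S s).card)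
    (a := fun s => ⟨R s, mem_CrG.2 (cs_univ.1 (Submodule.topologicalClosure_mono
      (Submodule.span_mono (Set.image_mono (Set.subset_univ _))) (hR s)))⟩)
    (fun s => Subtype.ext (hRR s)) (fun s u h => hj (le_antisymm
      (not_lt.1 fun k => (lt _ _ k).ne' h) (not_lt.1 fun k => (lt _ _ k).ne h)))
    (fun s => Finset.card_ne_zero.2 ⟨s, (hS s s).2 le_rfl⟩) (lenW_one hD.1) (lenW_mul hD.1 hD.2.1)
    fun δ hδ L₀ => ?_⟩
  obtain ⟨L₂, h2⟩ := small hP len hδ
  obtain ⟨L, hL, N, n1, n2, n3, n4⟩ := hD.2.2 (L₀ + L₂)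
  obtain ⟨τ, t1, t2⟩ := exists_tau N n2
  obtain ⟨τ', u1, u2⟩ := exists_tau _ (base_locFin (T := T) n2)
  refine ⟨L, by omega, τ P, _, long (base_normal N) u2 u1 (lenW_long hD.1 n3),
    h2 L (by omega) _ (long n1 t2 t1 n3), n4 τ t2, fun s => ?_⟩
  rw [← hτ s N τ τ' t2 u2, ← hτ s ⊥ tau0 tau0 isT_bot (by rw [base_bot]; exact isT_bot)]
  rfl

variable {X K : Type} [TopologicalSpace X] [MulAction G X] [ContinuousConstSMul G X]
  [CWComplex (Set.univ : Set X)] [NormedAddCommGroup K] [InnerProductSpace ℂ K] [CompleteSpace K]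

omit [Group T] in
theorem li_asm (h : IsEG G X) (b : HilbertBasis G ℂ K) {x : T → KZero (CrG G)}
    (hx : ∀ m : T →₀ ℤ, KZero.map (P089G44.cor G) (m.sum fun s c => c • x s) ∈ FP G → m = 0) :
    LinearIndependent ℤ fun s => (((kEq (eA b (cstar b) (cstar_ok b))).symm (x s) :
      KZero (cstar b)) : KZero (cstar b) ⧸ (asm h b).range) := by
  refine linearIndependent_iff.2 fun m hm => hx m ?_
  have e : ((m.sum fun s c => c • (kEq (eA b (cstar b) (cstar_ok b))).symm (x s) :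
      KZero (cstar b)) : KZero (cstar b) ⧸ (asm h b).range) = 0 := by
    rw [← hm, Finsupp.linearCombination_apply, ← QuotientAddGroup.mk'_apply, map_finsuppSum]
    rfl
  obtain ⟨z, hz⟩ := (QuotientAddGroup.eq_zero_iff _).1 e
  have := mu_mem (cor_corA b (cstar b) (cstar_ok b)) h z
  rw [← asm, hz, map_corA] at this
  simpa only [map_finsuppSum, map_zsmul, AddEquiv.apply_symm_apply] using this

open P089GQ in
/-- The clause on the cokernel for any system of maps. -/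
def Gen2 (T : Type) (φ : ∀ Y Y' : Sub G X, Y ≤ Y' → KY Y →+ KY Y') (b : HilbertBasis G ℂ K) :
    Prop :=
  ∀ μ : AddCommGroup.DirectLimit KY φ →+ KZero (Cr b), (∀ (E : Type) [NormedAddCommGroup E]
    [InnerProductSpace ℂ E] [CompleteSpace E] (c : HilbertBasis (G × ℕ) ℂ E),
    ∃ κ : KZero (Cr b) → KZero (St c), IsInd (fun T S => P089.BC.IsCorner b c T.op S.op) κ ∧
    ∀ (Y : Sub G X) (H : Type) [NormedAddCommGroup H] [InnerProductSpace ℂ H] [CompleteSpace H]
      [TopologicalSpace.SeparableSpace H] (Z : P089Z.Cycle G Y.Y H),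
      P089GQ.IsIndex (P089GQ.IsIndexMat c Z)
        (κ (μ (AddCommGroup.DirectLimit.of KY φ Y (Pres.of _ _ ⟨H, Z⟩))))) →
    ∃ x : T → KZero (Cr b) ⧸ μ.range, LinearIndependent ℤ x

omit [Group T] in
theorem fails_rank [Countable G] [Nonempty T] (h : IsEG G X) (b : HilbertBasis G ℂ K)
    {x : T → KZero (CrG G)}
    (hx : ∀ m : T →₀ ℤ, KZero.map (P089G44.cor G) (m.sum fun s c => c • x s) ∈ FP G → m = 0) :
    P089GQ.AssemblyFails X b ∧ Rank T (P089GQ.IsAssembly X b) := by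
  have li := li_asm h b hx
  obtain ⟨s⟩ := ‹Nonempty T›
  have k : ∀ m : ℕ, 1 ≤ m → m • (kEq (eA b (cstar b) (cstar_ok b))).symm (x s) ∉ (asm h b).range :=
    fun m hm e => by
      have := li.smul_left_injective s (a₁ := m) (a₂ := 0) (by
        simpa using (QuotientAddGroup.eq_zero_iff _).2 e)
      omega
  refine ⟨P089GQ.fails_of X b ⟨asm h b, (isAssembly_iff h b _).2 rfl,
    fun μ => (isAssembly_iff h b μ).1, fun hs => k 1 le_rfl (hs _), ⟨_, k⟩, one_mem _ h⟩, ?_⟩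
  have e : Gen2 (X := X) T Sub.push b := fun μ hμ => by
    obtain rfl : μ = asm h b := (isAssembly_iff h b μ).1 fun E _ _ _ c => by
      obtain ⟨κ, ⟨b1, b2, b3⟩, b4⟩ := hμ E c
      exact ⟨AddMonoidHom.mk' κ b1, b3, b2, b4⟩
    exact ⟨_, li⟩
  rw [← P089GQ.kyPush_eq] at e
  exact e

end Vale.Agent.N089
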