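import Vale.Agent.N089.Wr
import Vale.Agent.N089.Est

/-! Products of commuting copies of a projection in the wreath product. -/

namespace Vale.Agent.N089

open Vale.Agent.P089 Vale.Agent.P089.Op Vale.Agent.P089.Ind Vale.Agent.P086 Polynomial
  ContinuousLinearMap

variable {G T Γ : Type} [Group G] [Group T] [Group Γ]

/-- Operators on `ℓ²(G)`. -/
abbrev Ops (G : Type) := L2 G →L[ℂ] L2 G

/-- The closed span of the translations by elements of `B`. -/
noncomputable def CS (B : Set G) : Submodule ℂ (Ops G) :=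
  (Submodule.span ℂ (lam '' B)).topologicalClosure

theorem cs_univ {a : Ops G} : a ∈ CS (Set.univ : Set G) ↔ a ∈ CstarR G := by
  rw [CstarR, setOf_isLam, ← Set.image_univ]
  rfl

theorem lam_cs {B : Set G} {g : G} (h : g ∈ B) : lam g ∈ CS B :=
  Submodule.le_topologicalClosure _ (Submodule.subset_span ⟨g, h, rfl⟩)

theorem lin {F : Type} [NormedAddCommGroup F] [NormedSpace ℂ F] {B : Set G} (φ : Ops G →L[ℂ] F)
    {p : Submodule ℂ F} (hp : IsClosed (p : Set F)) (h : ∀ g ∈ B, φ (lam g) ∈ p) {a : Ops G}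
    (ha : a ∈ CS B) : φ a ∈ p :=
  Submodule.topologicalClosure_minimal (t := p.comap φ.toLinearMap) _
    (Submodule.span_le.2 (by rintro _ ⟨g, hg, rfl⟩; exact h g hg)) (hp.preimage φ.continuous) ha

theorem bil {F : Type} [NormedAddCommGroup F] [NormedSpace ℂ F] {B : Set Γ}
    (φ : Ops G →L[ℂ] Ops Γ →L[ℂ] F) {p : Submodule ℂ F} (hp : IsClosed (p : Set F))
    (h : ∀ g, ∀ w ∈ B, φ (lam g) (lam w) ∈ p) {a : Ops G} (ha : a ∈ CstarR G) {b : Ops Γ}
    (hb : b ∈ CS B) : φ a b ∈ p :=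
  lin (φ.flip b) hp (fun g _ => lin (φ (lam g)) hp (h g) hb) (cs_univ.2 ha)

theorem isT_val {N : Subgroup G} {τ : Ops G →L[ℂ] ℂ} (h : IsT N τ) (g : G) [Decidable (g ∈ N)] :
    τ (lam g) = if g ∈ N then 1 else 0 := by
  split_ifs with hg
  exacts [h.1 g hg, h.2 g hg]

theorem isT_bot : IsT ⊥ (tau0 : Ops G →L[ℂ] ℂ) := by
  classical
  exact ⟨fun g hg => (tau0_lam g).trans (if_pos hg), fun g hg => (tau0_lam g).trans (if_neg hg)⟩

theorem prods {P : Ops G} (hP : P ∈ CstarR G) (hPP : P * P = P) (S : Finset T) :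
    ∃ R ∈ CS (G := Wr G T) (bx (G := G) S ⊤), R * R = R ∧ ∀ (N : Subgroup G) τ τ', IsT N τ →
      IsT (base fun _ => N) τ' → τ' R = τ P ^ S.card := by
  classical
  induction S using Finset.induction_on with
  | empty => exact ⟨lam 1, lam_cs (one_mem _), by simp [lam_one], fun N _ _ _ h => by
      simpa using h.1 1 (one_mem _)⟩
  | insert x S hx ih =>
    obtain ⟨R, hR, hRR, hτ⟩ := ih
    obtain ⟨C, e, he⟩ := exists_equiv (io x) (io_inj (G := G) x)
    have hl : ∀ g, indL e (lam g) = lam (io x g) := ind_lam _ e he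
    have h1 := bil ((mul ℂ _).comp (indL e)) (p := CS (G := Wr G T) (bx (G := G) (insert x S) ⊤))
      (Submodule.isClosed_topologicalClosure _) (fun g w hw => by
        simpa [hl, ← lam_mul] using lam_cs (io_mem g hw)) hP hR
    have h2 := bil ((mul ℂ _).comp (indL e) - (mul ℂ (Ops (Wr G T))).flip.comp (indL e)) (p := ⊥) isClosed_singleton
      (fun g w hw => by simp [hl, ← lam_mul, io_comm hx g hw]) hP hR
    have h3 : indL e P * indL e P = indL e P := (ind_mul e P P).symm.trans (congrArg _ hPP)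
    have h4 : indL e P * R = R * indL e P := by simpa [sub_eq_zero] using h2
    refine ⟨indL e P * R, h1, by rw [mul_assoc, ← mul_assoc R, ← h4, mul_assoc, hRR, ← mul_assoc, h3],
      fun N τ τ' t1 t2 => ?_⟩
    have h5 := bil ((compL ℂ _ _ ℂ τ').comp ((mul ℂ _).comp (indL e)) - τ.smulRight τ') (p := ⊥)
      isClosed_singleton (fun g w hw => by
        by_cases k : g ∈ N <;> simp [hl, ← lam_mul, isT_val t1, isT_val t2, io_iff hx g hw, k])
      hP hR
    rw [Finset.card_insert_of_notMem hx, pow_succ', ← hτ N τ τ' t1 t2]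
    simpa [sub_eq_zero] using h5

theorem long {N : Subgroup G} (hN : N.Normal) {τ : Ops G →L[ℂ] ℂ} (h : IsT N τ) (hτ : ‖τ‖ ≤ 1)
    {len : G → ℕ} {L : ℕ} (hL : ∀ g ∈ N, g ≠ 1 → L ≤ len g) : Long len L (τ - tau0) := by
  classical
  refine ⟨(norm_sub_le τ tau0).trans (by linarith [norm_tau0_le (G := G)]), fun g k => ?_,
    fun g hg => ?_⟩
  · simp only [sub_apply, isT_val h, tau0_lam, hN.mem_comm_iff (a := g),
      mul_eq_one_comm (a := g)]
  · by_cases e : g = 1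
    · simp [isT_val h, tau0_lam, e]
    · simp [isT_val h, tau0_lam, e, mt (hL g · e) (not_le.2 hg)]

theorem small {P : Ops G} (hP : P ∈ CstarR G) (len : G → ℕ) {δ : ℝ} (hδ : 0 < δ) :
    ∃ L₁, ∀ L ≥ L₁, ∀ t, Long len L t → ‖t P‖ < δ := by
  rw [cstarR_eq] at hP
  obtain ⟨_, ⟨a, rfl⟩, h⟩ := Metric.mem_closure_iff.1 hP _ (half_pos hδ)
  refine ⟨a.coeff.support.sup len + 1, fun L hL t ht => ?_⟩
  have e : t P = t (P - lamA a) := by
    rw [map_sub, lamA_eq, map_sum, Finset.sum_eq_zero fun g hg => ?_, sub_zero]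
    rw [map_smul, ht.2.2 g (Nat.lt_of_lt_of_le (Nat.lt_succ_of_le (Finset.le_sup hg)) hL), smul_zero]
  rw [dist_eq_norm] at h
  rw [e]
  nlinarith [t.le_of_opNorm_le ht.1 (P - lamA a)]

theorem poly {f : ℂ[X]} {x : ℂ} (hf : f - C (f.eval x) ≠ 0) (κ : ℝ) : ∃ K δ : ℝ, ∃ L₁ : ℕ, 0 < δ ∧
    ∀ L ≥ L₁, ∀ y, ‖y - x‖ < δ → Real.exp (-κ * L) ≤ ‖y - x‖ →
      Real.exp (-K * L) ≤ ‖f.eval y - f.eval x‖ := by
  obtain ⟨h, e, h0⟩ := exists_eq_pow_rootMultiplicity_mul_and_not_dvd _ hf x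
  set j := rootMultiplicity x (f - C (f.eval x))
  have hc : 0 < ‖h.eval x‖ / 2 := half_pos (norm_pos_iff.2 (mt dvd_iff_isRoot.2 h0))
  obtain ⟨δ, hδ, hd⟩ := Metric.continuousAt_iff.1 (h.continuous.continuousAt (x := x)) _ hc
  obtain ⟨L₁, hL⟩ := exists_nat_ge (-Real.log (‖h.eval x‖ / 2))
  refine ⟨j * κ + 1, δ, L₁, hδ, fun L l y h1 h2 => ?_⟩
  have h3 := congrArg (fun p => ‖eval y p‖) e
  have h4 := hd (dist_eq_norm y x ▸ h1)
  have h5 := norm_sub_norm_le (h.eval x) (h.eval y)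
  have h6 : Real.exp (-L) ≤ ‖h.eval x‖ / 2 := (Real.le_log_iff_exp_le hc).1 (by
    have : (L₁ : ℝ) ≤ L := Nat.cast_le.2 l
    linarith)
  simp only [eval_sub, eval_C, eval_mul, eval_pow, eval_X, norm_mul, norm_pow] at h3
  rw [dist_comm, dist_eq_norm] at h4
  rw [h3, show -(j * κ + 1) * L = j * (-κ * L) + -L by ring, Real.exp_add, Real.exp_nat_mul]
  exact mul_le_mul (pow_le_pow_left₀ (Real.exp_pos _).le h2 j) (by linarith) (Real.exp_pos _).le
    (by positivity)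

end Vale.Agent.N089
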