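import Mathlib.Data.Finsupp.Encodable
import Vale.Agent.N089.Defs
import Vale.Agent.N089.Data

/-! Group theory of the restricted wreath product. -/

namespace Vale.Agent.N089

open Vale.Agent.P089 Vale.Agent.P089.Op RegularWreathProduct

variable {G T : Type} [Group G] [Group T]

theorem wr_countable [Countable G] [Countable T] : Countable (Wr G T) := by
  have : Countable (Additive G) := ‹Countable G›
  refine Function.Injective.countable (f := fun w : Wr G T =>
    (Finsupp.ofSupportFinite (fun y => Additive.ofMul (w.1.left y)) w.2, w.1.right))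
    fun a b h => Subtype.ext (RegularWreathProduct.ext (funext fun y => ?_) (Prod.mk.inj h).2)
  exact DFunLike.congr_fun (Prod.mk.inj h).1 y

/-- The functions with values in given subgroups. -/
def base (A : T → Subgroup G) : Subgroup (Wr G T) where
  carrier := {w | w.1.right = 1 ∧ ∀ y, w.1.left y ∈ A y}
  one_mem' := ⟨rfl, fun _ => one_mem _⟩
  mul_mem' {a b} ha hb := ⟨by simp [ha.1, hb.1], fun y => by
    simpa [ha.1] using mul_mem (ha.2 y) (hb.2 y)⟩
  inv_mem' {a} ha := ⟨by simp [ha.1], fun y => by simpa [ha.1] using ha.2 y⟩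

theorem base_normal (N : Subgroup G) [hN : N.Normal] : (base fun _ : T => N).Normal :=
  ⟨fun w hw u => ⟨by simp [hw.1], fun y => by
    simpa [hw.1] using hN.conj_mem _ (hw.2 (u.1.right⁻¹ * y)) (u.1.left y)⟩⟩

theorem base_ext {A B : T → Subgroup G} {a b : Wr G T} (ha : a ∈ base A) (hb : b ∈ base B)
    (h : ∀ y, a.1.left y = b.1.left y) : a = b :=
  Subtype.ext (RegularWreathProduct.ext (funext h) (ha.1.trans hb.1.symm))

theorem base_bot : (base fun _ : T => (⊥ : Subgroup G)) = ⊥ :=
  eq_bot_iff.2 fun _ h => base_ext h (one_mem (base fun _ => ⊥)) h.2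

open Classical in
/-- The functions supported in `S` with values in `F`. -/
noncomputable abbrev bx (S : Finset T) (F : Subgroup G) : Subgroup (Wr G T) :=
  base fun y => if y ∈ S then F else ⊥

theorem mem_bx {S : Finset T} {F : Subgroup G} {w : Wr G T} : w ∈ bx S F ↔
    w.1.right = 1 ∧ (∀ y ∈ S, w.1.left y ∈ F) ∧ ∀ y ∉ S, w.1.left y = 1 :=
  and_congr_right fun _ => ⟨fun h => ⟨fun y hy => by simpa [hy] using h y,
    fun y hy => by simpa [hy] using h y⟩, fun h y => by
      by_cases hy : y ∈ S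
      exacts [by simpa [hy] using h.1 y hy, by simpa [hy] using h.2 y hy]⟩

theorem base_locFin {N : Subgroup G} (hN : LocFin N) : LocFin (base fun _ : T => N) := by
  classical
  intro s hs
  let S : Finset T := s.biUnion fun w => w.2.toFinset
  have h1 := hN ((s ×ˢ S).image fun p => p.1.1.left p.2) fun g hg => by
    obtain ⟨p, hp, rfl⟩ := Finset.mem_image.1 hg
    exact (hs _ (Finset.mem_product.1 hp).1).2 _
  set F := Subgroup.closure (((s ×ˢ S).image fun p => p.1.1.left p.2 : Finset G) : Set G)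
  refine Set.Finite.subset (s := bx S F) (Set.Finite.of_finite_image
    (f := fun w (y : S) => w.1.left y) ((Set.Finite.pi' fun _ : S => h1).subset ?_)
    fun a ha b hb e => base_ext ha hb fun y => ?_) ((Subgroup.closure_le _).2 fun w hw => ?_)
  · rintro _ ⟨w, hw, rfl⟩ y
    exact (mem_bx.1 hw).2.1 y y.2
  · by_cases hy : y ∈ S
    · exact congrFun e ⟨y, hy⟩
    · rw [(mem_bx.1 ha).2.2 y hy, (mem_bx.1 hb).2.2 y hy]
  · exact mem_bx.2 ⟨(hs w hw).1, fun y hy => Subgroup.subset_closure (Finset.mem_image.2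
      ⟨(w, y), Finset.mem_product.2 ⟨hw, hy⟩, rfl⟩), fun y hy => by_contra fun k =>
        hy (Finset.mem_biUnion.2 ⟨w, hw, w.2.mem_toFinset.2 k⟩)⟩

open Classical in
/-- The copy of `G` at the point `x`. -/
noncomputable def io (x : T) : G →* Wr G T where
  toFun g := ⟨⟨Pi.mulSingle x g, 1⟩, (Set.finite_singleton x).subset fun _ h =>
    by_contra fun k => h (Pi.mulSingle_eq_of_ne (M := fun _ => G) k g)⟩
  map_one' := Subtype.ext (RegularWreathProduct.ext (Pi.mulSingle_one x) rfl)
  map_mul' a b := Subtype.ext (RegularWreathProduct.ext (by simp [Pi.mulSingle_mul]) (by simp))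

theorem io_right (x : T) (g : G) : (io x g).1.right = 1 := rfl

theorem io_self (x : T) (g : G) : (io x g).1.left x = g := by simp [io]

theorem io_ne {x y : T} (h : y ≠ x) (g : G) : (io x g).1.left y = 1 := by simp [io, h]

theorem io_inj (x : T) : Function.Injective (io (G := G) x) := fun a b h => by
  rw [← io_self x a, h, io_self]

theorem io_mul (x : T) (g : G) (w : Wr G T) (y : T) :
    (io x g * w).1.left y = (io x g).1.left y * w.1.left y := by simp [io_right]

section
variable {S : Finset T} {x : T} {w : Wr G T}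

theorem io_mem [DecidableEq T] (g : G) (hw : w ∈ bx S ⊤) : io x g * w ∈ bx (insert x S) ⊤ :=
  mem_bx.2 ⟨by simp [io_right, hw.1], fun _ _ => trivial, fun y hy => by
    rw [Finset.mem_insert, not_or] at hy
    rw [io_mul, io_ne hy.1, (mem_bx.1 hw).2.2 y hy.2, one_mul]⟩

theorem io_comm (hx : x ∉ S) (g : G) (hw : w ∈ bx S ⊤) : io x g * w = w * io x g := by
  refine Subtype.ext (RegularWreathProduct.ext (funext fun y => ?_) (by simp [io_right]))
  by_cases h : y = x
  · simp [io_right, hw.1, h, (mem_bx.1 hw).2.2 x hx]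
  · simp [io_right, hw.1, io_ne h]

theorem io_iff (hx : x ∉ S) (g : G) (hw : w ∈ bx S ⊤) (N : Subgroup G) :
    io x g * w ∈ (base fun _ => N) ↔ g ∈ N ∧ w ∈ base fun _ => N := by
  have h1 := (mem_bx.1 hw).2.2 x hx
  refine ⟨fun h => ⟨by simpa [io_right, io_self, h1] using h.2 x, hw.1, fun y => ?_⟩,
    fun h => mul_mem ⟨rfl, fun y => ?_⟩ h.2⟩
  · by_cases e : y = x
    · simp [e, h1]
    · simpa [io_right, io_ne e] using h.2 y
  · by_cases e : y = x
    · simpa [e, io_self] using h.1
    · simp [io_ne e]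

end

theorem wr_fg (hG : Group.FG G) (hT : Group.FG T) : Group.FG (Wr G T) := by
  classical
  obtain ⟨s, hs, fs⟩ := Group.fg_iff.1 hG
  obtain ⟨t, ht, ft⟩ := Group.fg_iff.1 hT
  obtain ⟨j, j1, j2⟩ : ∃ j : T →* Wr G T, (∀ x, (j x).1.left = 1) ∧ ∀ x, (j x).1.right = x :=
    ⟨inl.codRestrict _ fun _ => Set.finite_empty.subset fun _ h => h rfl, fun _ => rfl,
      fun _ => rfl⟩
  refine Group.fg_iff.2 ⟨io 1 '' s ∪ j '' t, eq_top_iff.2 fun w _ => ?_,
    (fs.image _).union (ft.image _)⟩
  set H := Subgroup.closure (io (1 : T) '' s ∪ j '' t)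
  have h1 : ∀ x, j x ∈ H := fun x => Subgroup.closure_mono Set.subset_union_right (by
    rw [← MonoidHom.map_closure, ht]
    exact ⟨x, trivial, rfl⟩)
  have h2 : ∀ x g, io x g ∈ H := fun x g => by
    have e : io x g = j x * io 1 g * (j x)⁻¹ := by
      refine Subtype.ext (RegularWreathProduct.ext (funext fun y => ?_) (by simp [io_right, j2]))
      by_cases h : y = x
      · simp [h, j1, j2, io_self]
      · simp [j1, j2, io_ne h, io_ne (mt inv_mul_eq_one.1 (Ne.symm h))]
    rw [e]
    refine mul_mem (mul_mem (h1 x) (Subgroup.closure_mono Set.subset_union_left ?_)) (inv_mem (h1 x))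
    rw [← MonoidHom.map_closure, hs]
    exact ⟨g, trivial, rfl⟩
  have h3 : ∀ S : Finset T, bx S ⊤ ≤ H := fun S => by
    induction S using Finset.induction_on with
    | empty => exact fun w hw => base_ext hw (one_mem (bx ∅ ⊤)) ((mem_bx.1 hw).2.2 · (by simp)) ▸
        one_mem H
    | insert x S _ ih =>
      refine fun w hw => (mul_mem_cancel_left (h2 x (w.1.left x)⁻¹)).1
        (ih (mem_bx.2 ⟨by simp [io_right, hw.1], fun _ _ => trivial, fun y hy => ?_⟩))
      by_cases e : y = x
      · rw [io_mul, e, io_self, inv_mul_cancel]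
      · rw [io_mul, io_ne e, (mem_bx.1 hw).2.2 y (by simp [e, hy]), one_mul]
  refine (mul_mem_cancel_right (h1 w.1.right⁻¹)).1 (h3 w.2.toFinset
    (mem_bx.2 ⟨by simp [j2], fun _ _ => trivial, fun y hy => ?_⟩))
  simpa [j1] using mt w.2.mem_toFinset.2 hy

/-- The largest length of a value. -/
noncomputable def lenW (len : G → ℕ) (w : Wr G T) : ℕ := w.2.toFinset.sup fun y => len (w.1.left y)

theorem le_lenW {len : G → ℕ} (h : len 1 = 0) (w : Wr G T) (y : T) :
    len (w.1.left y) ≤ lenW len w := by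
  by_cases e : w.1.left y = 1
  · simp [e, h]
  · exact Finset.le_sup (f := fun y => len (w.1.left y)) (w.2.mem_toFinset.2 e)

theorem lenW_one {len : G → ℕ} (h : len 1 = 0) : lenW len (1 : Wr G T) = 0 :=
  Nat.le_zero.1 (Finset.sup_le fun _ _ => h.le)

theorem lenW_mul {len : G → ℕ} (h : len 1 = 0) (h2 : ∀ g h, len (g * h) ≤ len g + len h)
    (a b : Wr G T) : lenW len (a * b) ≤ lenW len a + lenW len b :=
  Finset.sup_le fun _ _ => (h2 _ _).trans (add_le_add (le_lenW h a _) (le_lenW h b _))

theorem lenW_long {len : G → ℕ} (h : len 1 = 0) {N : Subgroup G} {L : ℕ}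
    (hN : ∀ g ∈ N, g ≠ 1 → L ≤ len g) (w : Wr G T) (hw : w ∈ base fun _ => N) (h1 : w ≠ 1) :
    L ≤ lenW len w := by
  obtain ⟨y, hy⟩ := not_forall.1 (mt (base_ext hw (one_mem (base fun _ => N))) h1)
  exact (hN _ (hw.2 y) hy).trans (le_lenW h w y)

end Vale.Agent.N089
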